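import Vale.Agent.P261.H321.CountTypes

/-!
# P261: the finite-type question is a countability question

`X` is a `K(n)`-local spectrum, `G` a finite torsion complex which is not `K(n)`-acyclic (for
example of type `n`), `Z` the finite localization of `X` away from `G` (the localization
`L_{n-1}^f X` if `G` has type `n`), and `C` the cofibre of `p` on the sphere spectrum.

`X` is of finite type if and only if the groups `[Σ^s G, X]` are finite and the groups
`π_t (Z ⊗ C)` are countable; it is enough to check this for `N` consecutive integers `s` and `t`.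
If the groups `[Σ^s G, X]` are finite (for the `K(n)`-local sphere this is a theorem of Hovey and
Strickland), then each group `π_t (Z ⊗ C)` is countable or has the cardinality of the continuum.
-/

namespace Vale.Agent.Results.P261.CountableCriterion

open Vale.Agent.P251.St Vale.Agent.P251.St.SHCat Vale.Agent.P241.St Vale.Agent.P261.St
open Vale.Agent.P261 Cardinal

theorem result : ∀ (T : SHCat) (S : Susp T) (p : ℕ) [Fact p.Prime] (K : ℕ → RingA T),
    (∀ i, IsMoravaK S p i (K i)) → ∀ n : ℕ, 1 ≤ n →
      -- finite torsion complexes of type `n`, and `K(n)`-acyclic ones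
      (∃ (b e : ℤ) (k : ℕ) (G : T.C), Cells b e G ∧ zmul ((p : ℤ) ^ k) (ident G) = 0 ∧
        (∀ i < n, Acyclic (K i).obj G) ∧ ¬ Acyclic (K n).obj G) ∧
      (∃ (b e : ℤ) (k : ℕ) (G : T.C), Cells b e G ∧ zmul ((p : ℤ) ^ k) (ident G) = 0 ∧
        Acyclic (K n).obj G ∧ ident G ≠ 0) ∧
      -- finite localizations
      (∀ (b e : ℤ) (G : T.C), Cells b e G → ∀ Y : T.C, ∃ (Z : T.C) (u : Hom Y Z),
        IsFinLoc G u) ∧
      ∀ (b e : ℤ) (G : T.C), Cells b e G → ¬ Acyclic (K n).obj G →
        ∀ X : T.C, IsLocal (K n).obj X → ∀ (Z : T.C) (u : Hom X Z), IsFinLoc G u →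
          -- the dichotomy
          ((∀ s : ℤ, Finite (Hom (ten (sphere T s) G) X)) →
            ∀ (b' e' : ℤ) (F : T.C), Cells b' e' F → ∀ t : ℤ,
              (Finite (Pi t (ten X F)) ∨ #(Pi t (ten X F)) = 𝔠) ∧
              (Countable (Pi t (ten Z F)) ∨ #(Pi t (ten Z F)) = 𝔠) ∧
              (Countable (Pi t (ten Z F)) → Finite (Pi t (ten X F))) ∧
              ((∀ s : ℤ, Finite (Pi s (ten X F))) → Countable (Pi t (ten Z F)))) ∧
          -- the criterion
          ∀ k : ℕ, zmul ((p : ℤ) ^ k) (ident G) = 0 →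
            ∀ (b' e' : ℤ) (k' : ℕ) (G' : T.C), Cells b' e' G' →
              zmul ((p : ℤ) ^ k') (ident G') = 0 → Acyclic (K n).obj G' → ident G' ≠ 0 →
              ∀ (C : T.C) (g : Hom T.one C) (h : Hom C (sus T.one)),
                Dist (zmul p (ident T.one)) g h → ∀ a c : ℤ,
                  ((∀ t : ℤ, FinGen p (Pi t X)) ↔
                    (∀ s, a ≤ s → s < a + (e' - b') →
                      Finite (Hom (ten (sphere T s) G) X)) ∧
                    ∀ t, c ≤ t → t < c + (e' - b') → Countable (Pi t (ten Z C))) := by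
  refine fun T S p _ K hK n hn => ⟨H321.exists_type S hK hn, ?_, fun b e G hG Y => ?_,
    fun b e G hG hA X hX Z u hu => ⟨fun hf b' e' F hF t => ?_,
      fun k hk b' e' k' G' hG' hk' hA' h0' C g h hC a c => ?_⟩⟩
  · obtain ⟨b, e, k, G, h1, h2, h3, h4⟩ := H321.exists_cells S (hK n)
    exact ⟨b, e, k, G, h1, h3, h2, h4⟩
  · obtain ⟨Z, u, hu⟩ := H321.exists_fl (H321.finCell_of_cells hG) Y
    exact ⟨Z, u, (H321.fl_iff u).2 hu⟩
  · exact H321.count_main S (hK n) hG hA hX hf hu hF t
  · exact H321.count_criterion S hn (hK n) hG hk hA hG' hk' hA' h0' hX hu hC a c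

end Vale.Agent.Results.P261.CountableCriterion
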