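import Vale.Agent.P261.H321.E.Main

/-!
# P261: the finite-type question for the `K(n)`-local sphere

Let `p` be an odd prime and `n ≥ 1` such that `p - 1` does not divide `n`. Let `X = L_{K(n)} S`.

* (Sparseness.) `π_t X = 0` and `π_t (X ⊗ S/p) = 0` unless `2 (p - 1)` divides `t + s` for some
  `0 ≤ s ≤ n²` (`Row p n t`).
* (Window.) There is a number `M` such that `X` is of finite type if `π_t X` is finitely generated
  over `ℤ_p` for those of `M` consecutive integers `t` for which `Row p n t` holds.

Let moreover `n ≤ 5` and `2 n ≤ p + 1` (so `n = 1` for `p = 3`, `n ≤ 3` for `p = 5`, `n ≤ 4` for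
`p = 7`, `n ≤ 5` for `p ≥ 11`), and let `N = ∑_{0 < j < n} (2 p^j - 1)`. There is a finite spectrum
`V` of type `n` such that the following holds for `X = L_{K(n)} Y`, `Y` any finite spectrum.

* All the groups `[Σ^s V, X]` are finite.
* `X` is of finite type if `π_t X` is finitely generated over `ℤ_p` for `N` consecutive integers
  `t`. If `Y = S`, then only those of these integers matter for which `Row p n t` holds.
* Let `Z` be the finite localization `L_{n-1}^f X`. For every finite spectrum `F` and every `t`,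
  `π_t (X ⊗ F)` is finite or has the cardinality of the continuum, `π_t (Z ⊗ F)` is countable or
  has the cardinality of the continuum.
* `X` is of finite type if and only if `π_t (Z ⊗ C)` is countable for `N` consecutive integers `t`,
  where `C` is the cofibre of `p` on the sphere spectrum. If `Y = S`, then only those of these
  integers matter for which `Row p n t` holds.
-/

namespace Vale.Agent.Results.P261.SphereCriterion

open Vale.Agent.P251.St Vale.Agent.P251.St.SHCat Vale.Agent.P261.St Vale.Agent.P261 Cardinal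

theorem result : (∃ T : SHCat, Nonempty (Susp T)) ∧
    ∀ (T : SHCat) (S : Susp T) (p : ℕ) [Fact p.Prime], p ≠ 2 →
      -- Morava `K`-theories and localizations exist, the sphere spectrum is finite
      (∃ K : ℕ → RingSp T, ∀ i, IsMorava S (K i) p i) ∧
      (∀ E Y : T.C, ∃ (X : T.C) (f : Hom Y X), IsLoc E f) ∧ Cells 0 0 T.one ∧
      ∀ K : ℕ → RingSp T, (∀ i, IsMorava S (K i) p i) → ∀ n : ℕ, 1 ≤ n → ¬ (p - 1) ∣ n →
        -- sparseness
        (∀ (X C : T.C) (f : Hom T.one X) (g : Hom T.one C) (h : Hom C (sus T.one)),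
          IsLoc (K n).obj f → Dist (zmul p (ident T.one)) g h → ∀ t : ℤ, ¬ Row p n t →
            (∀ x : Pi t X, x = 0) ∧ ∀ x : Pi t (ten X C), x = 0) ∧
        -- the window, for the remaining degrees
        (∃ M : ℕ, ∀ (X : T.C) (f : Hom T.one X), IsLoc (K n).obj f → ∀ c : ℤ,
          (∀ t, c ≤ t → t < c + M → Row p n t → FinGen p (Pi t X)) →
            ∀ t : ℤ, FinGen p (Pi t X)) ∧
        (n ≤ 5 → 2 * n ≤ p + 1 →
        ∃ (N : ℕ) (V : T.C), (N : ℤ) = ∑ j ∈ Finset.Icc 1 (n - 1), (2 * (p : ℤ) ^ j - 1) ∧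
          -- `V` is finite, of type `n`
          Cells 0 (N + 1) V ∧ (∀ i < n, Acyclic (K i).obj V) ∧ ¬ Acyclic (K n).obj V ∧
          (∀ Y : T.C, ∃ (Z : T.C) (u : Hom Y Z), IsFinLoc V u) ∧
          ∀ (b e : ℤ) (Y X : T.C) (f : Hom Y X), Cells b e Y → IsLoc (K n).obj f →
            (∀ s : ℤ, Finite (Hom (ten (sphere T s) V) X)) ∧
            Window p N X ∧
            (Y = T.one → ∀ c : ℤ, (∀ t, c ≤ t → t < c + N → Row p n t → FinGen p (Pi t X)) →
              ∀ t : ℤ, FinGen p (Pi t X)) ∧
            ∀ (Z : T.C) (u : Hom X Z), IsFinLoc V u →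
              -- the dichotomy
              (∀ (b' e' : ℤ) (F : T.C), Cells b' e' F → ∀ t : ℤ,
                (Finite (Pi t (ten X F)) ∨ #(Pi t (ten X F)) = 𝔠) ∧
                (Countable (Pi t (ten Z F)) ∨ #(Pi t (ten Z F)) = 𝔠) ∧
                (Countable (Pi t (ten Z F)) → Finite (Pi t (ten X F))) ∧
                ((∀ s : ℤ, Finite (Pi s (ten X F))) → Countable (Pi t (ten Z F)))) ∧
              -- the criterion
              ∀ (C : T.C) (g : Hom T.one C) (h : Hom C (sus T.one)),
                Dist (zmul p (ident T.one)) g h → ∀ c : ℤ,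
                  ((∀ t : ℤ, FinGen p (Pi t X)) ↔
                    ∀ t, c ≤ t → t < c + N → Countable (Pi t (ten Z C))) ∧
                  (Y = T.one → ((∀ t : ℤ, FinGen p (Pi t X)) ↔
                    ∀ t, c ≤ t → t < c + N → Row p n t → Countable (Pi t (ten Z C))))) := by
  refine ⟨nonempty_susp, fun T S p hp hp2 => ⟨?_, exists_isLoc T, ?_, fun K hK n hn hd =>
    ⟨fun X C f g h hf hC t ht => ?_, P261.E.window_row S hn hd (hK n), fun hn5 h2n => ?_⟩⟩⟩
  · choose K hK using fun n => P261.H321.exists_morava' S (p := p) hp2 n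
    exact ⟨K, hK⟩
  · exact P261.H321.cells_of_finCell (P257.H314.FinCell.unit (by simp))
  · exact P261.E.sparse_sphere S hn hd (hK n) f hf hC t ht
  · obtain ⟨N, V, hN, hV, hA, hA', h⟩ :=
      P261.E.sphere_sparse S hn hn5 h2n hd K fun i _ => hK i
    refine ⟨N, V, hN, hV, hA, hA', fun Y => ?_, h⟩
    obtain ⟨Z, u, hu⟩ := P261.H321.exists_fl (P261.H321.finCell_of_cells hV) Y
    exact ⟨Z, u, (P261.H321.fl_iff u).2 hu⟩

end Vale.Agent.Results.P261.SphereCriterion
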