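import Vale.Agent.P261.H321.All

/-!
# P261: the finite-type question is decided by finitely many consecutive degrees

For every prime `p` and every height `n ≥ 1` there is a number `N` such that a `K(n)`-local
spectrum (for example the `K(n)`-local sphere) is of finite type if its homotopy groups are
finitely generated over `ℤ_p` in `N` consecutive degrees.
-/

namespace Vale.Agent.Results.P261.WindowCriterion

open Vale.Agent.P251.St Vale.Agent.P251.St.SHCat Vale.Agent.P241.St Vale.Agent.P261.St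

theorem result : (∃ T : SHCat, Nonempty (Susp T)) ∧
    ∀ (T : SHCat) (S : Susp T) (p : ℕ) [Fact p.Prime] (n : ℕ), 1 ≤ n →
      (∃ K : RingA T, IsMoravaK S p n K) ∧
      (∀ K : RingA T, IsMoravaK S p n K →
        (∀ Y : T.C, ∃ (X : T.C) (f : Hom Y X), IsLoc K.obj f ∧ IsLocal K.obj X) ∧
        (∀ X : T.C, IsLocal K.obj X → ∀ t : ℤ, Nonempty (Unique (Module ℤ_[p] (Pi t X)))) ∧
        (∃ N : ℕ, ∀ X : T.C, IsLocal K.obj X → Window p N X) ∧
        (∃ (b e : ℤ) (k : ℕ) (G : T.C), Cells b e G ∧ Acyclic K.obj G ∧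
          zmul ((p : ℤ) ^ k) (ident G) = 0 ∧ ident G ≠ 0) ∧
        ∀ (b e : ℤ) (k : ℕ) (G : T.C), Cells b e G → Acyclic K.obj G →
          zmul ((p : ℤ) ^ k) (ident G) = 0 → ident G ≠ 0 →
          ∀ X : T.C, IsLocal K.obj X → Window p (e - b) X) ∧
      (11 ≤ p → n ≤ 4 → (∃ K : RingSp T, IsMorava S K p n) ∧
        ∀ K : RingSp T, IsMorava S K p n → ∀ X : T.C, IsLocal K.obj X →
          Window p (∑ j ∈ Finset.Icc 1 n, (2 * (p : ℤ) ^ j - 1)) X) := by
  refine ⟨nonempty_susp, fun T S p _ n hn => ⟨?_, fun K hK => ⟨fun Y => ?_, fun X hX => ?_,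
    P261.H321.exists_window S hn hK, P261.H321.exists_cells S hK,
    fun b e k G hG hA hk h0 X hX => ?_⟩, fun h11 hn4 => ⟨P261.H321.exists_morava' S (by omega) n,
    fun K hK X hX => P261.H321.window_of_low S h11 hn hn4 hK hX⟩⟩⟩
  · obtain ⟨K, hK⟩ := P241.EX.exists_moravaK S p
    exact ⟨K n, hK n⟩
  · obtain ⟨X, f, hf⟩ := exists_isLoc T K.obj Y
    exact ⟨X, f, hf, hf.2⟩
  · exact P261.H321.unique_module (P261.H321.char_of_moravaK S hn hK) hX
  · exact P261.H321.window_of_cells S (P261.H321.char_of_moravaK S hn hK) hX hG hA hk h0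

end Vale.Agent.Results.P261.WindowCriterion
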